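import Mathlib.Analysis.InnerProductSpace.PiL2
import Mathlib.MeasureTheory.Function.ConditionalExpectation.Basic
import Mathlib.Probability.ConditionalProbability
import Mathlib.Probability.HasLaw
import Mathlib.Probability.Independence.Basic
import Mathlib.Probability.ProductMeasure

/-!
# P147: random walk in an iid random environment, the objects of the problem
-/

open MeasureTheory ProbabilityTheory Filter

namespace Vale.Agent.P147W36

/-- the lattice `ℤ ^ d` -/
abbrev Site (d : ℕ) : Type := Fin d → ℤ

/-- the paths `X n`, `n ≥ 0` -/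
abbrev Paths (d : ℕ) : Type := ℕ → Site d

/-- the set `U` of the unit steps `± e i` -/
def U (d : ℕ) : Finset (Site d) :=
  (Finset.univ.image fun i => Pi.single i 1) ∪ Finset.univ.image fun i => -Pi.single i 1

/-- the simplex `Δ_U` of the transition vectors -/
abbrev Row (d : ℕ) : Type := {p : U d → ℝ // (∀ e, p e ∈ Set.Icc (0 : ℝ) 1) ∧ ∑ e, p e = 1}

/-- environments: a transition vector at each site -/
abbrev Env (d : ℕ) : Type := Site d → Row d

variable {d : ℕ}

/-- the iid environment law `μ ^ ⊗ ℤ ^ d` -/
noncomputable def envLaw (μ : Measure (Row d)) : Measure (Env d) :=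
  Measure.infinitePi fun _ : Site d => μ

/-- `μ (p e > 0 for all e ∈ U) = 1` -/
def Elliptic (μ : Measure (Row d)) : Prop := μ {p | ∀ e, 0 < p.1 e} = 1

/-- `P` is the law of the Markov chain with `X 0 = x` and with the transition probabilities
`P (X (n + 1) = y n + e | X 0 = y 0, ..., X n = y n) = ω (y n, e)`. -/
def IsQuenched (ω : Env d) (x : Site d) (P : Measure (Paths d)) : Prop :=
  IsProbabilityMeasure P ∧ P {X | X 0 = x} = 1 ∧
    ∀ (n : ℕ) (y : Paths d) (e : U d), P {X | ∀ i ≤ n, X i = y i} ≠ 0 →
      cond P {X | ∀ i ≤ n, X i = y i} {X | X (n + 1) = y n + e} = ENNReal.ofReal ((ω (y n)).1 e)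

/-- the annealed law, the mean of the laws `P ω` over the iid environment -/
noncomputable def annealed (μ : Measure (Row d)) (P : Env d → Measure (Paths d)) :
    Measure (Paths d) := (envLaw μ).bind P

/-- the event `A_ℓ` that `X n ⬝ ℓ → + ∞` -/
def Escape (l : EuclideanSpace ℝ (Fin d)) : Set (Paths d) :=
  {X | Tendsto (fun n => inner ℝ (WithLp.toLp 2 fun i => (X n i : ℝ)) l) atTop atTop}

/-- the σ-algebra generated by the environment `W` and by `X 0, ..., X n` -/
abbrev past {Ω : Type*} (W : Ω → Env d) (X : Ω → Paths d) (n : ℕ) : MeasurableSpace Ω :=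
  MeasurableSpace.comap (fun a => (W a, fun i : Finset.Iic n => X a i)) Prod.instMeasurableSpace

/-- On the probability space `Ω`, `Pr` the rows of `W` are iid with the law `μ`, and `X` is a walk
in the environment `W`: `X 0 = x`, and given `W` and `X 0, ..., X n` the next step is `e` with the
probability `W (X n, e)`. -/
def IsWalk {Ω : Type*} [MeasurableSpace Ω] (Pr : Measure Ω) (μ : Measure (Row d)) (x : Site d)
    (W : Ω → Env d) (X : Ω → Paths d) : Prop :=
  IsProbabilityMeasure Pr ∧ Measurable W ∧ Measurable X ∧ iIndepFun (fun z a => W a z) Pr ∧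
    (∀ z, HasLaw (fun a => W a z) μ Pr) ∧ (∀ᵐ a ∂Pr, X a 0 = x) ∧
    ∀ (n : ℕ) (e : U d), condExp (past W X n) Pr
      (Set.indicator {a | X a (n + 1) = X a n + e} fun _ => (1 : ℝ)) =ᵐ[Pr]
        fun a => (W a (X a n)).1 e

end Vale.Agent.P147W36
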