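import Vale.Agent.P147W36.Defs
import Vale.Agent.P147.Bd3.B4
import Mathlib.Probability.Process.FiniteDimensionalLaws

/-!
# P147: existence and uniqueness of the quenched law, the annealed law
-/

open MeasureTheory ProbabilityTheory Filter Set
open scoped ENNReal

namespace Vale.Agent.P147W36

open Vale.Agent.P147 (Dir vec quenched stepLaw pc)

variable {d : ℕ}

theorem vec_mem (u : Dir d) : vec u ∈ U d := by
  obtain ⟨i, s⟩ := u
  cases s
  · refine Finset.mem_union_right _ (Finset.mem_image.2 ⟨i, Finset.mem_univ _, ?_⟩)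
    simp [vec, Pi.single_neg]
  · exact Finset.mem_union_left _ (Finset.mem_image.2 ⟨i, Finset.mem_univ _, by simp [vec]⟩)

theorem exists_vec (e : U d) : ∃ u : Dir d, vec u = e := by
  obtain ⟨e, he⟩ := e
  rcases Finset.mem_union.1 he with h | h
  · obtain ⟨i, -, rfl⟩ := Finset.mem_image.1 h
    exact ⟨(i, true), by simp [vec]⟩
  · obtain ⟨i, -, rfl⟩ := Finset.mem_image.1 h
    exact ⟨(i, false), by simp [vec, Pi.single_neg]⟩

/-- the two descriptions of the unit steps -/
noncomputable def eqv (d : ℕ) : Dir d ≃ U d :=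
  Equiv.ofBijective (fun u => ⟨vec u, vec_mem u⟩)
    ⟨fun _ _ h => Vale.Agent.P147.vec_injective (congrArg Subtype.val h), fun e => by
      obtain ⟨u, hu⟩ := exists_vec e
      exact ⟨u, Subtype.ext hu⟩⟩

/-- the two descriptions of the rows -/
noncomputable def toRow (p : Row d) : Vale.Agent.P147.Row d :=
  ⟨fun u => p.1 (eqv d u), fun _ => (p.2.1 _).1, ((eqv d).sum_comp p.1).trans p.2.2⟩

theorem measurable_row (e : U d) : Measurable fun p : Row d => p.1 e :=
  (measurable_pi_apply e).comp measurable_subtype_coe

theorem measurable_toRow : Measurable (toRow : Row d → Vale.Agent.P147.Row d) := by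
  have h : Measurable fun (p : Row d) (u : Dir d) => p.1 (eqv d u) :=
    measurable_pi_lambda _ fun u => measurable_row _
  exact h.subtype_mk

theorem measurableSet_at (n : ℕ) (z : Site d) : MeasurableSet {X : Paths d | X n = z} :=
  measurableSet_eq_fun (measurable_pi_apply n) measurable_const

/-- the two descriptions of the environments -/
noncomputable def toEnv (ω : Env d) : Vale.Agent.P147.Env d := fun z => toRow (ω z)

theorem measurable_toEnv : Measurable (toEnv : Env d → Vale.Agent.P147.Env d) :=
  measurable_pi_lambda _ fun z => measurable_toRow.comp (measurable_pi_apply z)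

/-- the quenched law -/
noncomputable def Q (x : Site d) (ω : Env d) : Measure (Paths d) := quenched (toEnv ω) x

instance (x : Site d) (ω : Env d) : IsProbabilityMeasure (Q x ω) := by
  unfold Q
  infer_instance

theorem measurable_Q (x : Site d) : Measurable (Q x : Env d → Measure (Paths d)) :=
  (Vale.Agent.P147.measurable_quenched x).comp measurable_toEnv

theorem step_of (ω : Env d) (y : Site d) (e : U d) :
    stepLaw (toEnv ω) y {y + e} = ENNReal.ofReal ((ω y).1 e) := by
  obtain ⟨u, rfl⟩ := (eqv d).surjective e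
  exact Vale.Agent.P147.stepLaw_vec (toEnv ω) y u

theorem step_not (ω : Env d) {y z : Site d} (h : ∀ e : U d, z ≠ y + e) :
    stepLaw (toEnv ω) y {z} = 0 := by
  simp only [stepLaw, Measure.coe_finsetSum, Finset.sum_apply, Measure.coe_smul, Pi.smul_apply,
    smul_eq_mul]
  refine Finset.sum_eq_zero fun u _ => ?_
  rw [Measure.dirac_apply' _ (MeasurableSet.singleton _), Set.indicator_of_notMem, mul_zero]
  exact fun h1 => h (eqv d u) (mem_singleton_iff.1 h1).symm

theorem sum_row (p : Row d) : ∑ e, ENNReal.ofReal (p.1 e) = 1 := by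
  rw [← ENNReal.ofReal_sum_of_nonneg fun e _ => (p.2.1 e).1, p.2.2, ENNReal.ofReal_one]

theorem pc_succ (n : ℕ) (g : Paths d) :
    pc (n + 1) g = pc n g ∩ {X | X (n + 1) = g (n + 1)} := by
  ext X
  refine ⟨fun h => ⟨fun i hi => h i (by omega), h _ le_rfl⟩, fun h i hi => ?_⟩
  rcases Nat.lt_or_ge n i with h1 | h1
  · obtain rfl : i = n + 1 := by omega
    exact h.2
  · exact h.1 i h1

theorem pc_zero (g : Paths d) : pc 0 g = {X | X 0 = g 0} := by
  ext X
  simp [pc]

/-- the one step formula for the quenched law -/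
theorem Q_step (x : Site d) (ω : Env d) (n : ℕ) (g : Paths d) (z : Site d) :
    Q x ω (pc n g ∩ {X | X (n + 1) = z}) = Q x ω (pc n g) * stepLaw (toEnv ω) (g n) {z} := by
  have h1 : pc n (Function.update g (n + 1) z) = pc n g := by
    ext X
    refine forall_congr' fun i => forall_congr' fun hi => ?_
    rw [Function.update_of_ne (by omega)]
  have h2 := Vale.Agent.P147.quenched_pc_succ (toEnv ω) x n (Function.update g (n + 1) z)
  rw [pc_succ, h1, Function.update_self, Function.update_of_ne (by omega)] at h2
  exact h2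

/-- only unit steps are made -/
theorem rest_zero {Ω : Type*} [MeasurableSpace Ω] (ν : Measure Ω) [IsFiniteMeasure ν]
    {f : Ω → Site d} (hf : Measurable f) {y z : Site d}
    (h : ∑ e : U d, ν {a | f a = y + e} = ν univ) (hz : ∀ e : U d, z ≠ y + e) :
    ν {a | f a = z} = 0 := by
  have hm : ∀ e : U d, MeasurableSet {a | f a = y + e} := fun e =>
    hf (MeasurableSet.singleton _)
  have h1 : ν (⋃ e : U d, {a | f a = y + e}) = ν univ := by
    rw [measure_iUnion (fun e e' hne => ?_) hm, tsum_fintype, h]
    refine disjoint_left.2 fun a h2 h3 => hne (Subtype.ext ?_)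
    exact add_left_cancel ((show f a = y + e from h2).symm.trans h3)
  have h2 : ν (⋃ e : U d, {a | f a = y + e})ᶜ = 0 := by
    rw [measure_compl (MeasurableSet.iUnion hm) (measure_ne_top _ _), h1, tsub_self]
  refine measure_mono_null (fun a ha => ?_) h2
  intro h3
  obtain ⟨e, he⟩ := mem_iUnion.1 h3
  exact hz e ((show f a = z from ha).symm.trans he)

/-- a finite measure on paths is determined by the finite histories -/
theorem ext_pc {P P' : Measure (Paths d)} [IsFiniteMeasure P]
    (h : ∀ n g, P (pc n g) = P' (pc n g)) : P = P' := by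
  have h1 := isProjectiveMeasureFamily_map_restrict (P := P) (X := fun n (X : Paths d) => X n)
    fun n => (measurable_pi_apply n).aemeasurable
  refine IsProjectiveLimit.unique (P := fun I => P.map fun X : Paths d => I.restrict fun n => X n)
    (fun _ => rfl) ((isProjectiveLimit_nat_iff h1 P').2 fun n => ?_)
  refine Measure.ext_of_singleton fun t => ?_
  have h2 : t = fun i : Finset.Iic n =>
      (fun i : ℕ => if hi : i ≤ n then t ⟨i, Finset.mem_Iic.2 hi⟩ else 0) i := by
    funext i
    simp only [dif_pos (Finset.mem_Iic.1 i.2)]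
  have h3 := Vale.Agent.P147.frestrictLe_preimage n
    fun i : ℕ => if hi : i ≤ n then t ⟨i, Finset.mem_Iic.2 hi⟩ else 0
  rw [← h2] at h3
  have h4 : Measurable (Preorder.frestrictLe (π := fun _ : ℕ => Site d) n) :=
    Preorder.measurable_frestrictLe n
  refine (Measure.map_apply h4 (MeasurableSet.singleton t)).trans
    (Eq.trans ?_ (Measure.map_apply h4 (MeasurableSet.singleton t)).symm)
  rw [h3, h]

theorem isQuenched_Q (ω : Env d) (x : Site d) : IsQuenched ω x (Q x ω) := by
  refine ⟨inferInstance, Vale.Agent.P147.quenched_start_self _ _, fun n y e h => ?_⟩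
  have h1 : Q x ω (pc n y) ≠ 0 := h
  refine (cond_apply (Vale.Agent.P147.measurableSet_pc n y) _ _).trans ?_
  rw [Q_step, step_of, ← mul_assoc, ENNReal.inv_mul_cancel h1 (measure_ne_top _ _), one_mul]

theorem IsQuenched.eq_Q {ω : Env d} {x : Site d} {P : Measure (Paths d)} (h : IsQuenched ω x P) :
    P = Q x ω := by
  obtain ⟨h0, h1, h2⟩ := h
  have hs : ∀ (n : ℕ) (y : Paths d) (e : U d), P (pc n y ∩ {X | X (n + 1) = y n + e}) =
      P (pc n y) * ENNReal.ofReal ((ω (y n)).1 e) := by
    intro n y e
    by_cases h3 : P (pc n y) = 0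
    · rw [h3, zero_mul]
      exact measure_mono_null inter_subset_left h3
    · rw [← cond_mul_eq_inter (Vale.Agent.P147.measurableSet_pc n y), mul_comm]
      exact congrArg (P (pc n y) * ·) (h2 n y e h3)
  refine ext_pc fun n g => ?_
  induction n with
  | zero =>
    rw [pc_zero]
    refine Eq.trans ?_ (Vale.Agent.P147.quenched_start (toEnv ω) x (g 0)).symm
    by_cases h3 : x = g 0
    · rw [← h3, h1, indicator_of_mem (mem_singleton x)]
      rfl
    · rw [indicator_of_notMem (fun h4 => h3 (mem_singleton_iff.1 h4))]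
      have h4 : P {X | X 0 = x}ᶜ = 0 :=
        (prob_compl_eq_zero_iff (measurableSet_at 0 x)).2 h1
      exact measure_mono_null (fun X hX h5 => h3 ((show X 0 = x from h5).symm.trans hX)) h4
  | succ n ih =>
    rw [pc_succ, Q_step, ← ih]
    by_cases h3 : ∃ e : U d, g (n + 1) = g n + e
    · obtain ⟨e, he⟩ := h3
      rw [he, hs, step_of]
    · have h4 : ∀ e : U d, g (n + 1) ≠ g n + e := fun e he => h3 ⟨e, he⟩
      have hm := measurableSet_at (d := d) (n + 1)
      rw [step_not ω h4, mul_zero, inter_comm, ← Measure.restrict_apply (hm _)]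
      refine rest_zero _ (f := fun X : Paths d => X (n + 1)) (measurable_pi_apply (n + 1)) ?_ h4
      simp only [Measure.restrict_apply (hm _), Measure.restrict_apply_univ, inter_comm _ (pc n g),
        hs]
      rw [← Finset.mul_sum, sum_row, mul_one]

theorem existsUnique_quenched (ω : Env d) (x : Site d) : ∃! P, IsQuenched ω x P :=
  ⟨Q x ω, isQuenched_Q ω x, fun _ h => h.eq_Q⟩

theorem escape_eq (l : EuclideanSpace ℝ (Fin d)) :
    Escape l = Vale.Agent.P147.Escape fun i => l i := by
  ext X
  refine tendsto_congr fun n => ?_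
  simp [PiLp.inner_apply, Vale.Agent.P147.inner, mul_comm]

theorem measurableSet_escape (l : EuclideanSpace ℝ (Fin d)) : MeasurableSet (Escape l) := by
  rw [escape_eq]
  exact Vale.Agent.P147.Z.measurableSet_escR (Vale.Agent.P147.Z.innerHom _)

variable (μ : Measure (Row d)) [IsProbabilityMeasure μ]

instance : IsProbabilityMeasure (envLaw μ) := by
  unfold envLaw
  infer_instance

omit [IsProbabilityMeasure μ] in
theorem annealed_apply (x : Site d) {B : Set (Paths d)} (hB : MeasurableSet B) :
    annealed μ (Q x) B = ∫⁻ ω, Q x ω B ∂envLaw μ :=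
  Measure.bind_apply hB (measurable_Q x).aemeasurable

theorem isProb_annealed (x : Site d) : IsProbabilityMeasure (annealed μ (Q x)) :=
  ⟨by rw [annealed_apply μ x MeasurableSet.univ]; simp⟩

theorem annealed_eq (x : Site d) {B : Set (Paths d)} (hB : MeasurableSet B) :
    annealed μ (Q x) B = Vale.Agent.P147.annealed (μ.map toRow) x B := by
  have h1 : Vale.Agent.P147.envLaw (μ.map toRow) = (envLaw μ).map toEnv :=
    (Measure.infinitePi_map_pi (fun _ : Site d => μ) fun _ => measurable_toRow).symm
  rw [annealed_apply μ x hB, Vale.Agent.P147.annealed, h1,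
    lintegral_map (Vale.Agent.P147.measurable_quenched_apply x hB) measurable_toEnv]
  rfl

theorem zero_one (hd : 2 ≤ d) (hμ : Elliptic μ) (l : EuclideanSpace ℝ (Fin d)) :
    annealed μ (Q 0) (Escape l) = 0 ∨ annealed μ (Q 0) (Escape l) = 1 := by
  have : IsProbabilityMeasure (μ.map toRow) :=
    Measure.isProbabilityMeasure_map measurable_toRow.aemeasurable
  rw [annealed_eq μ 0 (measurableSet_escape l), escape_eq]
  refine Vale.Agent.P147.Z.zero_one _ hd ?_ _
  have h1 : MeasurableSet {p : Vale.Agent.P147.Row d | ∀ u, 0 < p.1 u} := by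
    rw [ofPred_forall]
    exact MeasurableSet.iInter fun u => measurableSet_lt measurable_const
      ((measurable_pi_apply u).comp measurable_subtype_coe)
  have h2 : MeasurableSet {p : Row d | ∀ e, 0 < p.1 e} := by
    rw [ofPred_forall]
    exact MeasurableSet.iInter fun u => measurableSet_lt measurable_const
      ((measurable_pi_apply u).comp measurable_subtype_coe)
  refine (ae_map_iff measurable_toRow.aemeasurable h1).2 ?_
  have h3 : ∀ᵐ p ∂μ, p ∈ {p : Row d | ∀ e, 0 < p.1 e} := (prob_compl_eq_zero_iff h2).2 hμ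
  filter_upwards [h3] with p hp u
  exact hp _

end Vale.Agent.P147W36
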