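import Vale.Agent.P147W36.Q
import Mathlib.Probability.Kernel.Composition.MeasureCompProd

/-!
# P147: the walk as a process on a probability space
-/

open MeasureTheory ProbabilityTheory Filter Set
open scoped ENNReal

namespace Vale.Agent.P147W36

open Vale.Agent.P147 (Dir vec quenched stepLaw pc)

variable {d : ℕ} {Ω : Type*} [mΩ : MeasurableSpace Ω] {Pr : Measure Ω} {μ : Measure (Row d)}
  {x : Site d} {W : Ω → Env d} {X : Ω → Paths d}

theorem measurable_env (z : Site d) (e : U d) : Measurable fun ω : Env d => (ω z).1 e :=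
  (measurable_row e).comp (measurable_pi_apply z)

theorem measurable_pair (hW : Measurable W) (hX : Measurable X) (n : ℕ) :
    Measurable fun a => (W a, fun i : Finset.Iic n => X a i) :=
  hW.prodMk (measurable_pi_lambda _ fun i => (measurable_pi_apply (i : ℕ)).comp hX)

theorem past_le (hW : Measurable W) (hX : Measurable X) (n : ℕ) : past W X n ≤ mΩ :=
  (measurable_pair hW hX n).comap_le

theorem measurableSet_step (hX : Measurable X) (n : ℕ) (e : U d) :
    MeasurableSet {a | X a (n + 1) = X a n + e} :=
  measurableSet_eq_fun ((measurable_pi_apply (n + 1)).comp hX)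
    (((measurable_pi_apply n).comp hX).add_const _)

theorem integrable_env [IsFiniteMeasure Pr] {f : Ω → Row d} {e : U d}
    (h : Measurable fun a => (f a).1 e) : Integrable (fun a => (f a).1 e) Pr :=
  (integrable_const (1 : ℝ)).mono' h.aestronglyMeasurable (Eventually.of_forall fun a => by
    rw [Real.norm_of_nonneg ((f a).2.1 e).1]
    exact ((f a).2.1 e).2)

theorem IsWalk.step (h : IsWalk Pr μ x W X) (n : ℕ) (g : Paths d) (e : U d) {B : Set (Env d)}
    (hB : MeasurableSet B) :
    Pr (W ⁻¹' B ∩ X ⁻¹' pc n g ∩ {a | X a (n + 1) = g n + e}) =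
      ∫⁻ a in W ⁻¹' B ∩ X ⁻¹' pc n g, ENNReal.ofReal ((W a (g n)).1 e) ∂Pr := by
  obtain ⟨h0, hW, hX, -, -, -, hc⟩ := h
  have hs : MeasurableSet[past W X n] (W ⁻¹' B ∩ X ⁻¹' pc n g) := by
    refine ⟨B ×ˢ {fun i : Finset.Iic n => g i}, hB.prod (MeasurableSet.singleton _), ?_⟩
    rw [← Vale.Agent.P147.frestrictLe_preimage]
    rfl
  have hs' := past_le hW hX n _ hs
  have hA := measurableSet_step hX n e
  have h1 := setIntegral_condExp (past_le hW hX n)
    ((integrable_const (μ := Pr) (1 : ℝ)).indicator hA) hs
  rw [setIntegral_congr_ae hs' ((hc n e).mono fun a ha _ => ha), setIntegral_indicator hA,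
    setIntegral_const, smul_eq_mul, mul_one,
    setIntegral_congr_fun hs' (g := fun a => (W a (g n)).1 e)
      fun a ha => by rw [show X a n = g n from ha.2 n le_rfl]] at h1
  rw [← ofReal_integral_eq_lintegral_ofReal
    (integrable_env ((measurable_env (g n) e).comp hW))
    (Eventually.of_forall fun a => ((W a (g n)).2.1 e).1), h1, Measure.real,
    ENNReal.ofReal_toReal (measure_ne_top _ _)]
  congr 1
  ext a
  refine and_congr_right fun ha => ?_
  show _ = _ ↔ _ = _
  rw [show X a n = g n from ha.2 n le_rfl]

theorem IsWalk.map_env (h : IsWalk Pr μ x W X) : Pr.map W = envLaw μ := by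
  obtain ⟨h0, hW, -, hi, hl, -⟩ := h
  have h1 := (iIndepFun_iff_map_fun_eq_infinitePi_map
    fun z => (measurable_pi_apply z).comp hW).1 hi
  refine h1.trans (congrArg Measure.infinitePi (funext fun z => (hl z).map_eq))

theorem IsWalk.joint (h : IsWalk Pr μ x W X) (n : ℕ) (g : Paths d) :
    ∀ B : Set (Env d), MeasurableSet B →
      Pr (W ⁻¹' B ∩ X ⁻¹' pc n g) = ∫⁻ ω in B, Q x ω (pc n g) ∂envLaw μ := by
  have h0 := h.1
  have hW := h.2.1
  have hX := h.2.2.1
  have hm : ∀ k, MeasurableSet (X ⁻¹' pc k g) := fun k =>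
    hX (Vale.Agent.P147.measurableSet_pc k g)
  induction n with
  | zero =>
    intro B hB
    have h1 : ∀ ω, Q x ω (pc 0 g) = indicator {g 0} 1 x := fun ω => by
      rw [pc_zero]
      exact Vale.Agent.P147.quenched_start _ _ _
    simp only [h1]
    rw [setLIntegral_const, ← h.map_env, Measure.map_apply hW hB, pc_zero]
    by_cases h2 : x = g 0
    · rw [indicator_of_mem (mem_singleton_iff.2 h2), Pi.one_apply, one_mul]
      refine measure_congr ?_
      filter_upwards [h.2.2.2.2.2.1] with a ha
      exact propext ⟨fun h3 => h3.1, fun h3 => ⟨h3, ha.trans h2⟩⟩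
    · rw [indicator_of_notMem fun h3 => h2 (mem_singleton_iff.1 h3), zero_mul]
      refine measure_mono_null (fun a ha => ?_) (ae_iff.1 h.2.2.2.2.2.1)
      intro h3
      exact h2 (h3.symm.trans ha.2)
  | succ n ih =>
    intro B hB
    have hq : Measurable fun ω : Env d => Q x ω (pc n g) :=
      (Measure.measurable_coe (Vale.Agent.P147.measurableSet_pc n g)).comp (measurable_Q x)
    have hz : ∀ z : Site d, MeasurableSet {a | X a (n + 1) = z} := fun z =>
      hX (measurableSet_at (n + 1) z)
    simp only [pc_succ, Q_step]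
    rw [preimage_inter, ← inter_assoc]
    by_cases h3 : ∃ e : U d, g (n + 1) = g n + e
    · obtain ⟨e, he⟩ := h3
      have hw : Measurable fun ω : Env d => ENNReal.ofReal ((ω (g n)).1 e) :=
        (measurable_env (g n) e).ennreal_ofReal
      have h4 : (Pr.restrict (X ⁻¹' pc n g)).map W =
          (envLaw μ).withDensity fun ω => Q x ω (pc n g) := by
        ext C hC
        rw [Measure.map_apply hW hC, Measure.restrict_apply (hW hC), ih C hC,
          withDensity_apply _ hC]
      simp only [he, step_of]
      refine (h.step n g e hB).trans ?_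
      rw [← Measure.restrict_restrict (hW hB), ← setLIntegral_map hB hw hW, h4,
        setLIntegral_withDensity_eq_setLIntegral_mul _ hq hw hB]
      rfl
    · have h4 : ∀ e : U d, g (n + 1) ≠ g n + e := fun e he => h3 ⟨e, he⟩
      simp only [step_not _ h4, mul_zero, lintegral_zero]
      have h5 := rest_zero (Pr.restrict (W ⁻¹' B ∩ X ⁻¹' pc n g))
        (f := fun a => X a (n + 1)) ((measurable_pi_apply (n + 1)).comp hX) (y := g n) ?_ h4
      · rw [inter_comm]
        exact (Measure.restrict_apply (hz _)).symm.trans h5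
      · have h6 : ∀ e : U d, Pr.restrict (W ⁻¹' B ∩ X ⁻¹' pc n g)
            {a | X a (n + 1) = g n + e} = ∫⁻ a in W ⁻¹' B ∩ X ⁻¹' pc n g,
              ENNReal.ofReal ((W a (g n)).1 e) ∂Pr := fun e => by
          rw [Measure.restrict_apply (hz _), inter_comm, h.step n g e hB]
        refine (Finset.sum_congr rfl fun e _ => h6 e).trans ?_
        rw [← lintegral_finsetSum _ (f := fun (e : U d) a => ENNReal.ofReal ((W a (g n)).1 e))
          fun e _ => ((measurable_env (g n) e).comp hW).ennreal_ofReal]
        simp only [sum_row, lintegral_one]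

/-- the law of the path of a walk is the annealed law -/
theorem IsWalk.map_eq (h : IsWalk Pr μ x W X) : Pr.map X = annealed μ (Q x) := by
  have h0 := h.1
  refine ext_pc fun n g => ?_
  have hm := Vale.Agent.P147.measurableSet_pc n g
  rw [annealed_apply μ x hm, Measure.map_apply h.2.2.1 hm]
  simpa using h.joint n g univ MeasurableSet.univ

/-- the one step formula, for sets of histories -/
theorem Q_hist (x : Site d) (ω : Env d) (n : ℕ) (e : U d) (S : Set (Finset.Iic n → Site d)) :
    ∫⁻ Y in (fun (Y : Paths d) (i : Finset.Iic n) => Y i) ⁻¹' S,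
      ENNReal.ofReal ((ω (Y n)).1 e) ∂Q x ω =
      Q x ω ((fun (Y : Paths d) (i : Finset.Iic n) => Y i) ⁻¹' S ∩
        {Y | Y (n + 1) = Y n + e}) := by
  have hr : Measurable fun (Y : Paths d) (i : Finset.Iic n) => Y i :=
    measurable_pi_lambda _ fun i => measurable_pi_apply (i : ℕ)
  have hA : MeasurableSet {Y : Paths d | Y (n + 1) = Y n + e} :=
    measurableSet_step measurable_id n e
  have key : ((Q x ω).withDensity fun Y => ENNReal.ofReal ((ω (Y n)).1 e)).map
      (fun (Y : Paths d) (i : Finset.Iic n) => Y i) =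
      ((Q x ω).restrict {Y | Y (n + 1) = Y n + e}).map
        fun (Y : Paths d) (i : Finset.Iic n) => Y i := by
    refine Measure.ext_of_singleton fun t => ?_
    obtain ⟨g, rfl⟩ : ∃ g : Paths d, t = fun i : Finset.Iic n => g i :=
      ⟨fun i => if hi : i ≤ n then t ⟨i, Finset.mem_Iic.2 hi⟩ else 0, funext fun i => by
        simp only [dif_pos (Finset.mem_Iic.1 i.2)]⟩
    have h1 : (fun (Y : Paths d) (i : Finset.Iic n) => Y i) ⁻¹' {fun i : Finset.Iic n => g i} =
      pc n g := Vale.Agent.P147.frestrictLe_preimage n g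
    have hm := Vale.Agent.P147.measurableSet_pc n g
    have h2 : pc n g ∩ {Y | Y (n + 1) = Y n + e} = pc n g ∩ {Y | Y (n + 1) = g n + e} := by
      ext Y
      refine and_congr_right fun hY => ?_
      show _ = _ ↔ _ = _
      rw [show Y n = g n from hY n le_rfl]
    rw [Measure.map_apply hr (MeasurableSet.singleton _),
      Measure.map_apply hr (MeasurableSet.singleton _), h1, withDensity_apply _ hm,
      Measure.restrict_apply hm, h2, Q_step, step_of,
      setLIntegral_congr_fun hm (g := fun _ => ENNReal.ofReal ((ω (g n)).1 e))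
        fun Y hY => by rw [show Y n = g n from hY n le_rfl], setLIntegral_const, mul_comm]
  have hS : MeasurableSet S := S.to_countable.measurableSet
  have h3 := congrArg (fun m : Measure (Finset.Iic n → Site d) => m S) key
  simp only [Measure.map_apply hr hS] at h3
  rw [withDensity_apply _ (hr hS), Measure.restrict_apply (hr hS)] at h3
  exact h3

/-- a walk exists -/
theorem exists_walk (μ : Measure (Row d)) [IsProbabilityMeasure μ] (x : Site d) :
    ∃ Pr : Measure (Env d × Paths d), IsWalk Pr μ x Prod.fst Prod.snd := by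
  obtain ⟨κ, hκ⟩ : ∃ κ : Kernel (Env d) (Paths d), ∀ ω, κ ω = Q x ω :=
    ⟨⟨Q x, measurable_Q x⟩, fun _ => rfl⟩
  have hM : IsMarkovKernel κ := ⟨fun ω => by rw [hκ]; infer_instance⟩
  have h1 : ((envLaw μ).compProd κ).map Prod.fst = envLaw μ := Measure.fst_compProd _ _
  have hz : ∀ z : Site d, Measurable fun a : Env d × Paths d => a.1 z := fun z =>
    (measurable_pi_apply z).comp measurable_fst
  have h2 : ∀ z : Site d, ((envLaw μ).compProd κ).map (fun a => a.1 z) = μ := fun z => by
    have h3 := Measure.map_map (μ := (envLaw μ).compProd κ) (measurable_pi_apply z)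
      (measurable_fst (α := Env d) (β := Paths d))
    rw [h1] at h3
    exact h3.symm.trans (Measure.infinitePi_map_eval (fun _ : Site d => μ) z)
  refine ⟨(envLaw μ).compProd κ, inferInstance, measurable_fst, measurable_snd, ?_,
    fun z => ⟨(hz z).aemeasurable, h2 z⟩, ?_, fun n e => ?_⟩
  · refine (iIndepFun_iff_map_fun_eq_infinitePi_map hz).2 (h1.trans ?_)
    simp only [h2]
    rfl
  · refine (Measure.ae_compProd_iff (measurable_snd (measurableSet_at 0 x))).2
      (Eventually.of_forall fun ω => ?_)
    rw [hκ]
    exact (prob_compl_eq_zero_iff (measurableSet_at 0 x)).2 (isQuenched_Q ω x).2.1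
  · have hA := measurableSet_step (Ω := Env d × Paths d) measurable_snd n e
    have hf : Measurable fun p : Env d × (Finset.Iic n → Site d) =>
        (p.1 (p.2 ⟨n, Finset.mem_Iic.2 le_rfl⟩)).1 e :=
      measurable_from_prod_countable_left fun t => measurable_env _ e
    have hp := measurable_pair (Ω := Env d × Paths d) measurable_fst measurable_snd n
    have hg : Measurable fun a : Env d × Paths d => (a.1 (a.2 n)).1 e := hf.comp hp
    have hi : Integrable (fun a : Env d × Paths d => (a.1 (a.2 n)).1 e)
      ((envLaw μ).compProd κ) := integrable_env hg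
    refine (ae_eq_condExp_of_forall_setIntegral_eq (past_le measurable_fst measurable_snd n)
      ((integrable_const (1 : ℝ)).indicator hA) (fun s _ _ => hi.integrableOn) ?_
      (hf.comp (comap_measurable _)).aestronglyMeasurable).symm
    rintro _ ⟨S, hS, rfl⟩ -
    have hs := hp hS
    rw [setIntegral_indicator hA, setIntegral_const, smul_eq_mul, mul_one,
      integral_eq_lintegral_of_nonneg_ae (Eventually.of_forall fun a => ((a.1 (a.2 n)).2.1 e).1)
        hg.aestronglyMeasurable, Measure.real, ← lintegral_indicator hs,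
      Measure.lintegral_compProd (hg.ennreal_ofReal.indicator hs),
      Measure.compProd_apply (hs.inter hA)]
    refine congrArg ENNReal.toReal (lintegral_congr fun ω => ?_)
    rw [hκ]
    refine Eq.trans ?_ (Q_hist x ω n e (Prod.mk ω ⁻¹' S))
    exact lintegral_indicator (measurable_prodMk_left (x := ω) hs)
      fun Y => ENNReal.ofReal ((ω (Y n)).1 e)

end Vale.Agent.P147W36
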